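import Mathlib

/-!
P207, [SPH]: the comparison of the mean logarithm of a determinant with the
exponents (Abel summation and the tangent line inequality of the logarithm),
together with the equality case.
-/

namespace Vale.Agent.P207.H761.SPH

open MeasureTheory Finset

/-- Abel summation: partial sums `≥ 0`, total `= 0`, weights increasing: the weighted
sum is `≤ 0`. -/
theorem abel_nonpos (m : ℕ) (d w : ℕ → ℝ) (hw : ∀ i, i + 1 < m → w i ≤ w (i + 1))
    (hd : ∀ k, k ≤ m → 0 ≤ ∑ i ∈ range k, d i) (htot : ∑ i ∈ range m, d i = 0) :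
    ∑ i ∈ range m, d i * w i ≤ 0 := by
  rcases Nat.eq_zero_or_pos m with h0 | hm
  · subst h0; simp
  have key : ∀ k, k + 1 ≤ m → ∑ i ∈ range (k + 1), d i * w i
      ≤ (∑ i ∈ range (k + 1), d i) * w k := by
    intro k
    induction k with
    | zero => intro _; simp
    | succ k ih =>
      intro hk
      have h1 := ih (by omega)
      have h2 := hd (k + 1) (by omega)
      have h3 := hw k (by omega)
      rw [sum_range_succ, sum_range_succ (fun i => d i) (k + 1)]
      nlinarith [mul_le_mul_of_nonneg_left h3 h2]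
  obtain ⟨k, rfl⟩ : ∃ k, m = k + 1 := ⟨m - 1, by omega⟩
  have := key k le_rfl
  rw [htot, zero_mul] at this
  exact this

/-- Tangent line of the logarithm at `c`. -/
theorem log_tangent {x c : ℝ} (hx : 0 < x) (hc : 0 < c) :
    Real.log x ≤ Real.log c + (x - c) * c⁻¹ := by
  have h := Real.log_le_sub_one_of_pos (div_pos hx hc)
  rw [Real.log_div hx.ne' hc.ne'] at h
  have : (x - c) * c⁻¹ = x / c - 1 := by field_simp
  rw [this]; linarith

theorem log_tangent_eq {x c : ℝ} (hx : 0 < x) (hc : 0 < c)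
    (h : Real.log x = Real.log c + (x - c) * c⁻¹) : x = c := by
  by_contra hne
  have h1 : x / c ≠ 1 := fun h1 => hne (by rwa [div_eq_one_iff_eq hc.ne'] at h1)
  have h2 := Real.log_lt_sub_one_of_pos (div_pos hx hc) h1
  rw [Real.log_div hx.ne' hc.ne'] at h2
  have : (x - c) * c⁻¹ = x / c - 1 := by field_simp
  rw [this] at h
  linarith

variable {Ω : Type*} [MeasurableSpace Ω] {μ : Measure Ω} [IsProbabilityMeasure μ]

theorem int_tangent {f : Ω → ℝ} (hf : Integrable f μ) (c : ℝ) :
    ∫ x, (Real.log c + (f x - c) * c⁻¹) ∂μ = Real.log c + ((∫ x, f x ∂μ) - c) * c⁻¹ := by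
  have h1 : Integrable (fun x => f x - c) μ := hf.sub (integrable_const _)
  have h2 : Integrable (fun x => (f x - c) * c⁻¹) μ := h1.mul_const _
  rw [integral_add (integrable_const _) h2, integral_mul_const,
    integral_sub hf (integrable_const _)]
  simp

/-- Mean logarithm of the determinant against the exponents `c i` (antitone, positive):
partial sums of the `c i` are at most those of the means of the `s i`, totals equal. -/
theorem mean_log_le (m : ℕ) (s : ℕ → Ω → ℝ) (c : ℕ → ℝ)
    (hpos : ∀ i < m, ∀ x, 0 < s i x) (hint : ∀ i < m, Integrable (s i) μ)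
    (hlog : ∀ i < m, Integrable (fun x => Real.log (s i x)) μ)
    (hc : ∀ i < m, 0 < c i) (hanti : ∀ i, i + 1 < m → c (i + 1) ≤ c i)
    (hk : ∀ k ≤ m, ∑ i ∈ range k, c i ≤ ∑ i ∈ range k, ∫ x, s i x ∂μ)
    (htot : ∑ i ∈ range m, ∫ x, s i x ∂μ = ∑ i ∈ range m, c i) :
    ∫ x, ∑ i ∈ range m, Real.log (s i x) ∂μ ≤ ∑ i ∈ range m, Real.log (c i) := by
  have hb : ∀ i < m, Integrable (fun x => Real.log (c i) + (s i x - c i) * (c i)⁻¹) μ :=
    fun i hi => (integrable_const _).add (((hint i hi).sub (integrable_const _)).mul_const _)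
  have h1 : ∫ x, ∑ i ∈ range m, Real.log (s i x) ∂μ
      ≤ ∫ x, ∑ i ∈ range m, (Real.log (c i) + (s i x - c i) * (c i)⁻¹) ∂μ := by
    apply integral_mono (integrable_finsetSum _ fun i hi => hlog i (mem_range.1 hi))
      (integrable_finsetSum _ fun i hi => hb i (mem_range.1 hi))
    intro x
    exact sum_le_sum fun i hi => log_tangent (hpos i (mem_range.1 hi) x) (hc i (mem_range.1 hi))
  refine h1.trans ?_
  rw [integral_finsetSum _ fun i hi => hb i (mem_range.1 hi)]
  have h2 : ∀ i ∈ range m, ∫ x, (Real.log (c i) + (s i x - c i) * (c i)⁻¹) ∂μ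
      = Real.log (c i) + ((∫ x, s i x ∂μ) - c i) * (c i)⁻¹ := by
    intro i hi
    have hi' := mem_range.1 hi
    exact int_tangent (hint i hi') (c i)
  rw [sum_congr rfl h2, sum_add_distrib]
  have h3 := abel_nonpos m (fun i => (∫ x, s i x ∂μ) - c i) (fun i => (c i)⁻¹)
    (fun i hi => inv_anti₀ (hc (i + 1) hi) (hanti i hi))
    (fun k hk' => by rw [sum_sub_distrib]; linarith [hk k hk'])
    (by rw [sum_sub_distrib, htot, sub_self])
  linarith

/-- The equality case: every `s i` is a.e. the constant `c i`. -/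
theorem mean_log_eq (m : ℕ) (s : ℕ → Ω → ℝ) (c : ℕ → ℝ)
    (hpos : ∀ i < m, ∀ x, 0 < s i x) (hint : ∀ i < m, Integrable (s i) μ)
    (hlog : ∀ i < m, Integrable (fun x => Real.log (s i x)) μ)
    (hc : ∀ i < m, 0 < c i) (hanti : ∀ i, i + 1 < m → c (i + 1) ≤ c i)
    (hk : ∀ k ≤ m, ∑ i ∈ range k, c i ≤ ∑ i ∈ range k, ∫ x, s i x ∂μ)
    (htot : ∑ i ∈ range m, ∫ x, s i x ∂μ = ∑ i ∈ range m, c i)
    (heq : ∑ i ∈ range m, Real.log (c i) ≤ ∫ x, ∑ i ∈ range m, Real.log (s i x) ∂μ) :
    ∀ i < m, ∀ᵐ x ∂μ, s i x = c i := by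
  have hb : ∀ i < m, Integrable (fun x => Real.log (c i) + (s i x - c i) * (c i)⁻¹) μ :=
    fun i hi => (integrable_const _).add (((hint i hi).sub (integrable_const _)).mul_const _)
  have h2 : ∀ i ∈ range m, ∫ x, (Real.log (c i) + (s i x - c i) * (c i)⁻¹) ∂μ
      = Real.log (c i) + ((∫ x, s i x ∂μ) - c i) * (c i)⁻¹ := by
    intro i hi
    have hi' := mem_range.1 hi
    exact int_tangent (hint i hi') (c i)
  have h3 := abel_nonpos m (fun i => (∫ x, s i x ∂μ) - c i) (fun i => (c i)⁻¹)
    (fun i hi => inv_anti₀ (hc (i + 1) hi) (hanti i hi))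
    (fun k hk' => by rw [sum_sub_distrib]; linarith [hk k hk'])
    (by rw [sum_sub_distrib, htot, sub_self])
  have hF : Integrable (fun x => ∑ i ∈ range m,
      ((Real.log (c i) + (s i x - c i) * (c i)⁻¹) - Real.log (s i x))) μ :=
    integrable_finsetSum _ fun i hi =>
      (hb i (mem_range.1 hi)).sub (hlog i (mem_range.1 hi))
  have hFn : 0 ≤ fun x => ∑ i ∈ range m,
      ((Real.log (c i) + (s i x - c i) * (c i)⁻¹) - Real.log (s i x)) := by
    intro x
    exact sum_nonneg fun i hi => sub_nonneg.2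
      (log_tangent (hpos i (mem_range.1 hi) x) (hc i (mem_range.1 hi)))
  have hzero : ∫ x, ∑ i ∈ range m,
      ((Real.log (c i) + (s i x - c i) * (c i)⁻¹) - Real.log (s i x)) ∂μ = 0 := by
    apply le_antisymm _ (integral_nonneg hFn)
    simp_rw [sum_sub_distrib]
    rw [integral_sub (integrable_finsetSum _ fun i hi => hb i (mem_range.1 hi))
      (integrable_finsetSum _ fun i hi => hlog i (mem_range.1 hi)),
      integral_finsetSum _ fun i hi => hb i (mem_range.1 hi), sum_congr rfl h2,
      sum_add_distrib]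
    linarith
  have hae := (integral_eq_zero_iff_of_nonneg hFn hF).1 hzero
  intro i hi
  filter_upwards [hae] with x hx
  have h4 : ∀ j ∈ range m,
      (Real.log (c j) + (s j x - c j) * (c j)⁻¹) - Real.log (s j x) = 0 :=
    (sum_eq_zero_iff_of_nonneg fun j hj => sub_nonneg.2
      (log_tangent (hpos j (mem_range.1 hj) x) (hc j (mem_range.1 hj)))).1 hx
  exact log_tangent_eq (hpos i hi x) (hc i hi)
    (by linarith [h4 i (mem_range.2 hi)])

end Vale.Agent.P207.H761.SPH
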